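import Vale.Agent.P343.H741.Iface

/-!
Row P: recurrent states of idempotent boxes.
-/

namespace Vale.Agent.P343.H741.H641

open Relation

variable {Q : Type}

/-- A transitive and dense relation on a finite type has a reflexive point between any two
related points. -/
theorem dense_fix [Finite Q] (R : Q → Q → Prop) (ht : ∀ x y z, R x y → R y z → R x z)
    (hd : ∀ x y, R x y → ∃ z, R x z ∧ R z y) {x y : Q} (h : R x y) :
    ∃ z, R x z ∧ R z z ∧ R z y := by
  obtain ⟨w0, h1, h2⟩ := hd x y h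
  have key : ∀ n : ℕ, ∀ w, ({u | R x u ∧ R u w} : Set Q).ncard ≤ n → R x w → R w y →
      ∃ z, R x z ∧ R z z ∧ R z y := by
    intro n
    induction n with
    | zero =>
      intro w hn hw _
      obtain ⟨v, hv1, hv2⟩ := hd x w hw
      exfalso
      have h3 : ({u | R x u ∧ R u w} : Set Q) = ∅ :=
        (Set.ncard_eq_zero (Set.toFinite _)).1 (Nat.le_zero.1 hn)
      have h4 : v ∈ ({u | R x u ∧ R u w} : Set Q) := ⟨hv1, hv2⟩
      rw [h3] at h4
      exact h4
    | succ n ih =>
      intro w hn hw hwy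
      obtain ⟨v, hv1, hv2⟩ := hd x w hw
      by_cases hvv : R v v
      · exact ⟨v, hv1, hvv, ht _ _ _ hv2 hwy⟩
      · refine ih v ?_ hv1 (ht _ _ _ hv2 hwy)
        have h3 : ({u | R x u ∧ R u v} : Set Q) ⊂ {u | R x u ∧ R u w} := by
          refine ⟨fun u hu => ⟨hu.1, ht _ _ _ hu.2 hv2⟩, fun hc => hvv ?_⟩
          have h4 : v ∈ ({u | R x u ∧ R u w} : Set Q) := ⟨hv1, hv2⟩
          exact (hc h4).2
        have h5 := Set.ncard_lt_ncard h3 (Set.toFinite _)
        omega
  exact key _ w0 le_rfl h1 h2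

section

variable (H : AlgFacts Q)

include H

theorem bounce {e f : NB Q} {c c' : Bool × Q} (h1 : e * f = f) (h2 : f * e = f)
    (hc : c.1 ≠ c'.1) (h : e c c') : f c c' := by
  obtain ⟨d, q⟩ := c
  obtain ⟨d', q'⟩ := c'
  cases d <;> cases d'
  · exact absurd rfl hc
  · have h3 := H.bncR (f := e) (g := f) h
    rw [h1] at h3
    exact h3
  · have h3 := H.bncL (f := f) (g := e) h
    rw [h2] at h3
    exact h3
  · exact absurd rfl hc

/-- Changing the environment. -/
theorem chg {e l r l' r' m : NB Q} {d : Bool} {x y : Q} (hl : l' = e ∨ (e * l' = l' ∧ l' * e = l'))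
    (hr : r' = e ∨ (e * r' = r' ∧ r' * e = r')) (h1 : l = e) (h2 : r = e)
    (h : Cr l m r d x y) : Cr l' m r' d x y := by
  subst h1
  subst h2
  refine H.mono ?_ ?_ (fun _ _ h => h) h
  · intro q q' h3
    rcases hl with hl | ⟨hl1, hl2⟩
    · rw [hl]; exact h3
    · exact bounce H hl1 hl2 (by simp) h3
  · intro q q' h3
    rcases hr with hr | ⟨hr1, hr2⟩
    · rw [hr]; exact h3
    · exact bounce H hr1 hr2 (by simp) h3

theorem trans {e : NB Q} {d : Bool} {x y z : Q} (he : e * e = e) (h1 : T e d x y)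
    (h2 : T e d y z) : T e d x z := by
  cases d
  · have h := H.compR (l := e) (m := e) (m' := e) (r := e) (x := x) (y := y) (z := z)
    rw [he] at h
    exact h h1 h2
  · have h := H.compL (l := e) (m := e) (m' := e) (r := e) (x := x) (y := y) (z := z)
    rw [he] at h
    exact h h1 h2

theorem dense {e : NB Q} {d : Bool} {x z : Q} (he : e * e = e) (h1 : T e d x z) :
    ∃ y, T e d x y ∧ T e d y z := by
  cases d
  · have h := H.splitR (l := e) (m := e) (m' := e) (r := e) (x := x) (z := z)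
    rw [he] at h
    exact h h1
  · have h := H.splitL (l := e) (m := e) (m' := e) (r := e) (x := x) (z := z)
    rw [he] at h
    exact h h1

theorem comp {e s t : NB Q} {d : Bool} {x y z : Q} (hs1 : e * s = s)
    (hs2 : s * e = s) (ht1 : e * t = t) (ht2 : t * e = t)
    (h1 : if d then X e t d x y else X e s d x y)
    (h2 : if d then X e s d y z else X e t d y z) : X e (s * t) d x z := by
  cases d
  · have h := H.compR (l := e) (m := s) (m' := t) (r := e) (x := x) (y := y) (z := z)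
    rw [ht2, hs1] at h
    exact h (chg H (e := e) (Or.inl rfl) (Or.inr ⟨ht1, ht2⟩) rfl rfl h1)
      (chg H (e := e) (Or.inr ⟨hs1, hs2⟩) (Or.inl rfl) rfl rfl h2)
  · have h := H.compL (l := e) (m := s) (m' := t) (r := e) (x := x) (y := y) (z := z)
    rw [ht2, hs1] at h
    exact h (chg H (e := e) (Or.inr ⟨hs1, hs2⟩) (Or.inl rfl) rfl rfl h1)
      (chg H (e := e) (Or.inl rfl) (Or.inr ⟨ht1, ht2⟩) rfl rfl h2)

theorem invL {e f : NB Q} {d : Bool} {x y z : Q} (he : e * e = e) (hf1 : e * f = f)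
    (hf2 : f * e = f) (h1 : T e d x y) (h2 : X e f d y z) : X e f d x z := by
  cases d
  · have h := comp H (e := e) (s := e) (t := f) (d := false) (x := x) (y := y) (z := z) he he
      hf1 hf2 h1 h2
    rw [hf1] at h
    exact h
  · have h := comp H (e := e) (s := f) (t := e) (d := true) (x := x) (y := y) (z := z) hf1 hf2
      he he h1 h2
    rw [hf2] at h
    exact h

theorem invR {e f : NB Q} {d : Bool} {x y z : Q} (he : e * e = e) (hf1 : e * f = f)
    (hf2 : f * e = f) (h1 : X e f d x y) (h2 : T e d y z) : X e f d x z := by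
  cases d
  · have h := comp H (e := e) (s := f) (t := e) (d := false) (x := x) (y := y) (z := z) hf1 hf2
      he he h1 h2
    rw [hf2] at h
    exact h
  · have h := comp H (e := e) (s := e) (t := f) (d := true) (x := x) (y := y) (z := z) he he
      hf1 hf2 h1 h2
    rw [hf1] at h
    exact h

theorem out {e f : NB Q} {d : Bool} {a x y b : Q} (hf1 : e * f = f) (hf2 : f * e = f)
    (h1 : e (d, a) (d, x)) (h2 : X e f d x y) (h3 : e (d, y) (d, b)) : f (d, a) (d, b) := by
  cases d
  · have h := H.outR (l := e) (m := f) (r := e) h1 h2 h3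
    rw [hf1, hf2] at h
    exact h
  · have h := H.outL (l := e) (m := f) (r := e) h1 h2 h3
    rw [hf1, hf2] at h
    exact h

theorem inn {e f : NB Q} {d : Bool} {a b : Q} (hf1 : e * f = f) (hf2 : f * e = f)
    (h : f (d, a) (d, b)) : ∃ x y, e (d, a) (d, x) ∧ X e f d x y ∧ e (d, y) (d, b) := by
  cases d
  · refine H.inR (l := e) (m := f) (r := e) ?_
    rw [hf1, hf2]
    exact h
  · refine H.inL (l := e) (m := f) (r := e) ?_
    rw [hf1, hf2]
    exact h

theorem dir {f : NB Q} {d : Bool} {x z : Q} (hf : f * f = f) (h : T f d x z) :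
    ∃ w w', T f d x w ∧ f (d, w) (d, w') ∧ T f d w' z := by
  cases d
  · have h1 := H.dirR (l := f) (m1 := f) (m2 := f) (m3 := f) (r := f) (x := x) (z := z)
    rw [hf, hf] at h1
    exact h1 h
  · have h1 := H.dirL (l := f) (m1 := f) (m2 := f) (m3 := f) (r := f) (x := x) (z := z)
    rw [hf, hf] at h1
    exact h1 h

theorem one' {e : NB Q} {d : Bool} {x y : Q} (h : e (d, x) (d, y)) : T e d x y :=
  H.single h

theorem up {e f : NB Q} {d : Bool} {x y : Q} (hf1 : e * f = f) (hf2 : f * e = f)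
    (h : X e f d x y) : T f d x y :=
  chg H (e := e) (Or.inr ⟨hf1, hf2⟩) (Or.inr ⟨hf1, hf2⟩) rfl rfl h

theorem via1 [Finite Q] {e : NB Q} {d : Bool} {a b : Q} (he : e * e = e)
    (h : e (d, a) (d, b)) : ∃ z, Pt e d z ∧ Via e d a b z := by
  obtain ⟨x, y, h1, h2, h3⟩ := inn H (e := e) (f := e) he he h
  obtain ⟨z, h4, h5, h6⟩ := dense_fix (T e d) (fun _ _ _ => trans H he)
    (fun _ _ => dense H he) h2
  exact ⟨z, h5, x, y, h1, h4, h6, h3⟩

theorem subL {e f : NB Q} {d : Bool} {x y z : Q} (hf : f * f = f) (hf1 : e * f = f)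
    (hf2 : f * e = f) (h1 : T e d x y) (h2 : T f d y z) : T f d x z := by
  cases d
  · have h := H.compR (l := f) (m := e) (m' := f) (r := f) (x := x) (y := y) (z := z)
    rw [hf, hf1, hf2] at h
    exact h (chg H (e := e) (Or.inr ⟨hf1, hf2⟩) (Or.inr ⟨hf1, hf2⟩) rfl rfl h1) h2
  · have h := H.compL (l := f) (m := f) (m' := e) (r := f) (x := x) (y := y) (z := z)
    rw [hf, hf1, hf2] at h
    exact h (chg H (e := e) (Or.inr ⟨hf1, hf2⟩) (Or.inr ⟨hf1, hf2⟩) rfl rfl h1) h2

theorem subR {e f : NB Q} {d : Bool} {x y z : Q} (hf : f * f = f) (hf1 : e * f = f)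
    (hf2 : f * e = f) (h1 : T f d x y) (h2 : T e d y z) : T f d x z := by
  cases d
  · have h := H.compR (l := f) (m := f) (m' := e) (r := f) (x := x) (y := y) (z := z)
    rw [hf, hf1, hf2] at h
    exact h h1 (chg H (e := e) (Or.inr ⟨hf1, hf2⟩) (Or.inr ⟨hf1, hf2⟩) rfl rfl h2)
  · have h := H.compL (l := f) (m := e) (m' := f) (r := f) (x := x) (y := y) (z := z)
    rw [hf, hf1, hf2] at h
    exact h h1 (chg H (e := e) (Or.inr ⟨hf1, hf2⟩) (Or.inr ⟨hf1, hf2⟩) rfl rfl h2)

theorem port [Finite Q] {e f : NB Q} {d : Bool} {y : Q} (he : e * e = e) (hf : f * f = f)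
    (hf1 : e * f = f) (hf2 : f * e = f) (h : Pt f d y) :
    ∃ u v, Pt e d u ∧ Pt e d v ∧ T f d y u ∧ T f d u y ∧ T f d y v ∧ T f d v y ∧
      X e f d u v := by
  obtain ⟨w, w', h1, h2, h3⟩ := dir H hf h
  obtain ⟨x, x', h4, h5, h6⟩ := inn H hf1 hf2 h2
  obtain ⟨u, hu, p, p', h7, h8, h9, h10⟩ := via1 H he h4
  obtain ⟨v, hv, q, q', h11, h12, h13, h14⟩ := via1 H he h6
  have hux : T e d u x := trans H he h9 (one' H h10)
  have hxv : T e d x' v := trans H he (one' H h11) h12
  have hxx : T f d x x' := up H hf1 hf2 h5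
  refine ⟨u, v, hu, hv, ?_, ?_, ?_, ?_, ?_⟩
  · exact subR H hf hf1 hf2 h1 (trans H he (one' H h7) h8)
  · refine trans H hf (y := w') ?_ h3
    exact subR H hf hf1 hf2 (subL H hf hf1 hf2 hux hxx) (one' H h6)
  · refine subR H hf hf1 hf2 (y := x') ?_ hxv
    exact trans H hf (subR H hf hf1 hf2 h1 (one' H h4)) hxx
  · exact subL H hf hf1 hf2 (trans H he h13 (one' H h14)) h3
  · exact invR H he hf1 hf2 (invL H he hf1 hf2 hux h5) hxv

end

/-- Row P. -/
theorem pts (Q : Type) [Finite Q] (H : AlgFacts Q) : PtsFacts Q where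
  trans := fun he h1 h2 => trans H he h1 h2
  comp := by
    intro e s t d x _ hs1 hs2 ht1 ht2 h1 h2
    refine comp H hs1 hs2 ht1 ht2 (y := x) ?_ ?_
    · cases d
      · exact h1
      · exact h2
    · cases d
      · exact h2
      · exact h1
  invL := fun he h1 h2 h3 h4 => invL H he h1 h2 h3 h4
  invR := fun he h1 h2 h3 h4 => invR H he h1 h2 h3 h4
  via1 := fun he h => via1 H he h
  via2 := by
    intro e f d a b z he hf1 hf2 hv hx
    obtain ⟨x, y, h1, h2, h3, h4⟩ := hv
    exact out H hf1 hf2 h1 (invR H he hf1 hf2 (invL H he hf1 hf2 h2 hx) h3) h4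
  via3 := by
    intro e d a b a' b' z z' he hv hv' hz
    obtain ⟨x, y, h1, h2, h3, h4⟩ := hv
    obtain ⟨x', y', h1', h2', h3', h4'⟩ := hv'
    exact out H he he h1 (trans H he h2 (trans H he hz h3')) h4'
  bounce := fun h1 h2 hc h => bounce H h1 h2 hc h
  port := fun he hf h1 h2 h => port H he hf h1 h2 h
  subL := fun _ hf h1 h2 h3 h4 => subL H hf h1 h2 h3 h4
  subR := fun _ hf h1 h2 h3 h4 => subR H hf h1 h2 h3 h4
  env := by
    intro e0 e s d x y h1 h2 h
    exact chg H (e := e0) (Or.inr ⟨h1, h2⟩) (Or.inr ⟨h1, h2⟩) rfl rfl h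

end Vale.Agent.P343.H741.H641
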